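import Crest.Agent.R121.C3
import Crest.Agent.R121.DD

/-! Row 121, module P (helper66), file P4a: helper40's homotopy lemma (C2, C3) with
`b' b = p`, `p` central, instead of `b' b = 1`. -/

set_option autoImplicit false
set_option linter.unusedSectionVars false
set_option linter.deprecated false
set_option linter.unusedTactic false

open Crest.OpAlg Finset

namespace Crest.Agent.R121.PC

section Alg

variable {A : Type*} [Ring A]

/-- `b' b = p`, `p` central, `b p = b`, `p b' = b'` -/
structure PB {κ : Type*} (p : A) (b b' : κ → A) : Prop where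
  comm : ∀ x, p * x = x * p
  mul : ∀ i, b' i * b i = p
  right : ∀ i, b i * p = b i
  left : ∀ i, p * b' i = b' i

/-- the diagonal merges agree -/
theorem mg_yy_diag {p : A} (b b' X : ℕ → A) (hb : PB p b b') (i : ℕ) :
    mg i (yy b b' X i) = mg i (yy b b' X (i + 1)) := by
  funext l
  unfold mg yy
  rcases lt_trichotomy l i with h | h | h
  · simp only [h, if_true, show l < i + 1 by omega]
  · subst h
    simp only [lt_irrefl, if_false, if_true, lt_add_one, Nat.add_sub_cancel,
      show ¬ (l + 1 < l) by omega, show ¬ (l + 1 = l) by omega]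
    rw [mul_assoc, hb.mul, mul_assoc, ← hb.comm, ← mul_assoc, hb.right]
  · simp only [show ¬ (l < i) by omega, show ¬ (l = i) by omega, show ¬ (l + 1 < i) by omega,
      show ¬ (l + 1 = i) by omega, show ¬ (l + 1 < i + 1) by omega,
      show ¬ (l + 1 = i + 1) by omega, if_false]

theorem mg_yy_lt {p : A} (b b' X : ℕ → A) (hb : PB p b b') {i j : ℕ} (hij : i < j) :
    mg i (yy b b' X (j + 1)) =
      yy (b ∘ skip (i + 1)) (b' ∘ skip (i + 1)) (mg i X) j := by
  funext l
  unfold mg yy skip
  simp only [Function.comp]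
  rcases lt_trichotomy l i with h | h | h
  · simp only [h, if_true, show l < j + 1 by omega, show l < j by omega, show l < i + 1 by omega,
      show l + 1 < i + 1 by omega]
  · subst h
    simp only [lt_irrefl, if_false, if_true, show l < j + 1 by omega, show l + 1 < j + 1 by omega,
      hij, show l < l + 1 by omega]
    calc b l * X l * b' (l + 1) * (b (l + 1) * X (l + 1) * b' (l + 1 + 1))
        = b l * X l * (b' (l + 1) * b (l + 1)) * X (l + 1) * b' (l + 1 + 1) := by
          simp only [mul_assoc]
      _ = _ := by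
          rw [hb.mul, mul_assoc (b l), ← hb.comm, ← mul_assoc (b l), hb.right]
          simp only [mul_assoc]
  · simp only [show ¬ (l < i) by omega, show ¬ (l = i) by omega, if_false,
      show ¬ (l < i + 1) by omega, show ¬ (l + 1 < i + 1) by omega]
    rcases lt_trichotomy l j with h' | h' | h'
    · simp only [h', show l + 1 < j + 1 by omega, if_true]
    · subst h'
      simp only [lt_irrefl, if_false, if_true, show ¬ (l < i + 1) by omega]
    · have e1 : l - 1 + 1 = l := by omega
      have e2 : ¬ (l - 1 < i) := by omega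
      have e3 : ¬ (l - 1 = i) := by omega
      simp only [show ¬ (l + 1 < j + 1) by omega, show ¬ (l + 1 = j + 1) by omega,
        show ¬ (l < j) by omega, show ¬ (l = j) by omega, if_false, e2, e3, e1,
        Nat.add_sub_cancel]

/-- **homotopy identity**, one sequence -/
theorem homotopy_seq {n : ℕ} (f : (Fin (n + 1) → A) → A)
    (hf : ∀ a : Fin (n + 2) → A, hochschildDiff f a = 0) (b b' X : ℕ → A)
    {p : A} (hb : PB p b b') (hp : ∀ x, p * f x = f x) :
    f (fun i => X i) - pp f b b' X =
      X 0 * hh f (fun i => b (i + 1)) (fun i => b' (i + 1)) (fun i => X (i + 1)) +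
      (∑ i ∈ range n, ((-1 : ℤ) ^ (i + 1)) •
        hh f (b ∘ skip (i + 1)) (b' ∘ skip (i + 1)) (mg i X)) +
      ((-1 : ℤ) ^ (n + 1)) • (hh f b b' X * X n) := by
  have key : ∑ j ∈ range (n + 2), ((-1 : ℤ) ^ j) •
      (b' 0 * hochschildDiff f (fun i => yy b b' X j i)) = 0 := by
    refine Finset.sum_eq_zero fun j _ => ?_
    rw [hf, mul_zero, smul_zero]
  simp only [diff_seq, mul_add, smul_add, Finset.sum_add_distrib, Finset.mul_sum,
    Finset.smul_sum] at key
  -- first terms
  have h1 : ∑ j ∈ range (n + 2), ((-1 : ℤ) ^ j) •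
      (b' 0 * (yy b b' X j 0 * f (fun i : Fin (n + 1) => yy b b' X j (i + 1)))) =
      f (fun i => X i) -
        X 0 * hh f (fun i => b (i + 1)) (fun i => b' (i + 1)) (fun i => X (i + 1)) := by
    rw [Finset.sum_range_succ']
    have e0 : ((-1 : ℤ) ^ 0) • (b' 0 * (yy b b' X 0 0 *
        f (fun i : Fin (n + 1) => yy b b' X 0 (i + 1)))) = f (fun i => X i) := by
      have : (fun i : Fin (n + 1) => yy b b' X 0 (i + 1)) = fun i : Fin (n + 1) => X i := by
        funext i; simp [yy]
      rw [this, ← mul_assoc]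
      simp [yy, hb.mul, hp]
    rw [e0]
    unfold hh
    rw [Finset.mul_sum, add_comm, sub_eq_add_neg, ← Finset.sum_neg_distrib]
    congr 1
    refine Finset.sum_congr rfl fun j _ => ?_
    have e1 : (fun i : Fin (n + 1) => yy b b' X (j + 1) (i + 1)) =
        fun i : Fin (n + 1) => yy (fun i => b (i + 1)) (fun i => b' (i + 1))
          (fun i => X (i + 1)) j i := by
      funext i
      unfold yy
      rcases lt_trichotomy (i : ℕ) j with h | h | h
      · simp only [h, if_true, show (i : ℕ) + 1 < j + 1 by omega]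
      · subst h; simp
      · have e : (i : ℕ) - 1 + 1 = i := by omega
        simp only [show ¬ ((i : ℕ) + 1 < j + 1) by omega, show ¬ ((i : ℕ) + 1 = j + 1) by omega,
          show ¬ ((i : ℕ) < j) by omega, show ¬ ((i : ℕ) = j) by omega, if_false, e,
          Nat.add_sub_cancel]
    have e2 : yy b b' X (j + 1) 0 = b 0 * X 0 * b' 1 := by simp [yy]
    rw [e1, e2, pow_succ, mul_neg_one, neg_smul, mul_smul_comm]
    have e3 : ∀ z : A, b' 0 * (b 0 * X 0 * b' 1 * z) = X 0 * (b' (0 + 1) * z) := by
      intro z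
      calc b' 0 * (b 0 * X 0 * b' 1 * z) = (b' 0 * b 0) * (X 0 * (b' 1 * z)) := by
            simp only [mul_assoc]
        _ = X 0 * ((p * b' 1) * z) := by
            rw [hb.mul, ← mul_assoc p, hb.comm (X 0)]; simp only [mul_assoc]
        _ = _ := by rw [hb.left]
    rw [e3]
  -- last terms
  have h3 : ∑ j ∈ range (n + 2), ((-1 : ℤ) ^ j) •
      (b' 0 * (((-1 : ℤ) ^ (n + 1 + 1)) • (f (fun i : Fin (n + 1) => yy b b' X j i) *
        yy b b' X j (n + 1)))) =
      - pp f b b' X - ((-1 : ℤ) ^ (n + 1)) • (hh f b b' X * X n) := by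
    rw [Finset.sum_range_succ]
    have e0 : ((-1 : ℤ) ^ (n + 1)) • (b' 0 * (((-1 : ℤ) ^ (n + 1 + 1)) •
        (f (fun i : Fin (n + 1) => yy b b' X (n + 1) i) * yy b b' X (n + 1) (n + 1)))) =
        - pp f b b' X := by
      have e1 : (fun i : Fin (n + 1) => yy b b' X (n + 1) i) =
          fun i : Fin (n + 1) => b i * X i * b' (i + 1) := by
        funext i
        simp only [yy, i.isLt, if_true]
      have e2 : yy b b' X (n + 1) (n + 1) = b (n + 1) := by simp [yy]
      rw [e1, e2]
      unfold pp
      rw [mul_smul_comm, smul_smul, pow_succ (-1 : ℤ) (n + 1), ← mul_assoc, ← mul_pow]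
      norm_num
      rw [mul_assoc]
    rw [e0, add_comm, sub_eq_add_neg]
    congr 1
    unfold hh
    rw [Finset.sum_mul, Finset.smul_sum, ← Finset.sum_neg_distrib]
    refine Finset.sum_congr rfl fun j hj => ?_
    rw [mem_range] at hj
    have e2 : yy b b' X j (n + 1) = X n := by
      simp only [yy, show ¬ (n + 1 < j) by omega, show ¬ (n + 1 = j) by omega, if_false,
        Nat.add_sub_cancel]
    rw [e2, mul_smul_comm, smul_smul, smul_mul_assoc, smul_smul, ← neg_smul, mul_assoc]
    congr 1
    rw [pow_succ (-1 : ℤ) (n + 1)]; ring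
  -- merges
  have h2 : ∑ j ∈ range (n + 2), ∑ i ∈ range (n + 1), ((-1 : ℤ) ^ j) •
      (b' 0 * (((-1 : ℤ) ^ (i + 1)) • f (fun l : Fin (n + 1) => mg i (yy b b' X j) l))) =
      - ∑ i ∈ range n, ((-1 : ℤ) ^ (i + 1)) •
        hh f (b ∘ skip (i + 1)) (b' ∘ skip (i + 1)) (mg i X) := by
    rw [double_sum]
    · rw [← Finset.sum_neg_distrib]
      refine Finset.sum_congr rfl fun i _ => ?_
      unfold hh
      rw [Finset.smul_sum, ← Finset.sum_neg_distrib]
      refine Finset.sum_congr rfl fun j _ => ?_
      have e0 : (b' ∘ skip (i + 1)) 0 = b' 0 := by simp [skip]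
      rw [e0]
      by_cases hij : j ≤ i
      · rw [if_pos hij]
        simp only [mg_yy_gt b b' X hij]
        rw [mul_smul_comm, smul_smul, smul_smul, ← neg_smul]
        congr 1
        rw [pow_succ (-1 : ℤ) (i + 1)]; ring
      · rw [if_neg hij]
        simp only [mg_yy_lt b b' X hb (show i < j by omega)]
        rw [mul_smul_comm, smul_smul, smul_smul, ← neg_smul]
        congr 1
        rw [pow_succ (-1 : ℤ) j]; ring
    · intro i _
      rw [mg_yy_diag b b' X hb i, ← add_smul]
      have e : (-1 : ℤ) ^ i + (-1 : ℤ) ^ (i + 1) = 0 := by ring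
      rw [e, zero_smul]
  rw [h1, h3, h2] at key
  have := key
  rw [← sub_eq_zero, ← this]
  abel


end Alg

section Avg

variable {A : Type*} [NormedRing A] [NormedAlgebra ℂ A] {ι : Type*} [Fintype ι] [Nonempty ι]

/-- **averaged homotopy lemma** (all degrees): `f - Pf = d (homot f)` -/
theorem homot_diff {n : ℕ} (f : MultilinearMap ℂ (fun _ : Fin (n + 1) => A) A)
    (hf : ∀ a : Fin (n + 2) → A, hochschildDiff f a = 0) (b b' : ι → A)
    {p : A} (hb : PB p b b') (hp : ∀ x, p * f x = f x) (x : Fin (n + 1) → A) :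
    f x - hochschildDiff (homot f b b') x =
      av fun σ : Fin (n + 2) → ι =>
        b' (σ 0) * f (fun l : Fin (n + 1) => b (σ l.castSucc) * x l * b' (σ l.succ)) *
          b (σ (Fin.last (n + 1))) := by
  -- extend `x`
  let X : ℕ → A := fun i => if h : i < n + 1 then x ⟨i, h⟩ else 0
  have hX : x = fun i : Fin (n + 1) => X i := by
    funext i
    simp only [X, i.isLt, dif_pos]
  have hpp : ∀ σ : Fin (n + 2) → ι,
      b' (σ 0) * f (fun l : Fin (n + 1) => b (σ l.castSucc) * x l * b' (σ l.succ)) *
          b (σ (Fin.last (n + 1))) = pp f (b ∘ ex σ) (b' ∘ ex σ) X := by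
    intro σ
    unfold pp
    have e1 : (b' ∘ ex σ) 0 = b' (σ 0) := rfl
    have e2 : (b ∘ ex σ) (n + 1) = b (σ (Fin.last (n + 1))) := by
      simp only [Function.comp, ex, min_self]; rfl
    rw [e1, e2]
    congr 3
    funext l
    have hl := l.isLt
    have h3 : X l = x l := by rw [hX]
    rw [h3]
    simp only [Function.comp, ex]
    congr 3
    · congr 2; ext; simp only [Fin.val_castSucc]; omega
    · congr 1; ext; simp only [Fin.val_succ]; omega
  have hD : hochschildDiff (homot f b b') x =
      X 0 * (av fun τ : Fin (n + 1) → ι => hh f (b ∘ ex τ) (b' ∘ ex τ) (fun i => X (i + 1))) +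
      (∑ i ∈ range n, ((-1 : ℤ) ^ (i + 1)) •
        (av fun τ : Fin (n + 1) → ι => hh f (b ∘ ex τ) (b' ∘ ex τ) (mg i X))) +
      ((-1 : ℤ) ^ (n + 1)) •
        ((av fun τ : Fin (n + 1) → ι => hh f (b ∘ ex τ) (b' ∘ ex τ) X) * X n) := by
    rw [hX, diff_seq]
    simp only [homot_apply]
    rw [homot_apply f b b' (fun i => X (i + 1))]
  have hmain : av (fun σ : Fin (n + 2) → ι => f x - pp f (b ∘ ex σ) (b' ∘ ex σ) X) =
      hochschildDiff (homot f b b') x := by
    rw [hD]
    have h1 : ∀ σ : Fin (n + 2) → ι, f x - pp f (b ∘ ex σ) (b' ∘ ex σ) X =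
        X 0 * hh f (b ∘ ex ((0 : Fin (n + 2)).removeNth σ))
          (b' ∘ ex ((0 : Fin (n + 2)).removeNth σ)) (fun i => X (i + 1)) +
        (∑ i : Fin n, ((-1 : ℤ) ^ ((i : ℕ) + 1)) •
          hh f (b ∘ ex (i.succ.castSucc.removeNth σ))
            (b' ∘ ex (i.succ.castSucc.removeNth σ)) (mg i X)) +
        ((-1 : ℤ) ^ (n + 1)) • (hh f (b ∘ ex ((Fin.last (n + 1)).removeNth σ))
          (b' ∘ ex ((Fin.last (n + 1)).removeNth σ)) X * X n) := by
      intro σ
      have h2 := homotopy_seq f hf (b ∘ ex σ) (b' ∘ ex σ) X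
        (p := p) ⟨hb.comm, fun i => hb.mul _, fun i => hb.right _, fun i => hb.left _⟩ hp
      rw [← hX] at h2
      rw [h2]
      congr 1
      · congr 1
        · congr 1
          refine hh_congr (by omega) f (fun i hi => ?_) (fun i hi => ?_) (fun i _ => rfl)
          · have := ex_skip (0 : Fin (n + 2)) σ i hi
            simp only [Function.comp, ← this]
            simp [skip]
          · have := ex_skip (0 : Fin (n + 2)) σ i hi
            simp only [Function.comp, ← this]
            simp [skip]
        · rw [← Fin.sum_univ_eq_sum_range (fun i => ((-1 : ℤ) ^ (i + 1)) •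
            hh f ((b ∘ ex σ) ∘ skip (i + 1)) ((b' ∘ ex σ) ∘ skip (i + 1)) (mg i X))]
          refine Finset.sum_congr rfl fun i _ => ?_
          congr 1
          refine hh_congr (by omega) f (fun l hl => ?_) (fun l hl => ?_) (fun l _ => rfl)
          · have := ex_skip (i.succ.castSucc : Fin (n + 2)) σ l hl
            simp only [Function.comp, ← this, Fin.val_castSucc, Fin.val_succ]
          · have := ex_skip (i.succ.castSucc : Fin (n + 2)) σ l hl
            simp only [Function.comp, ← this, Fin.val_castSucc, Fin.val_succ]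
      · congr 2
        refine hh_congr (by omega) f (fun i hi => ?_) (fun i hi => ?_) (fun i _ => rfl)
        · have := ex_skip (Fin.last (n + 1)) σ i hi
          simp only [Function.comp, ← this, Fin.val_last, skip, hi, if_true]
        · have := ex_skip (Fin.last (n + 1)) σ i hi
          simp only [Function.comp, ← this, Fin.val_last, skip, hi, if_true]
    simp only [h1]
    rw [av_add, av_add]
    congr 1
    · congr 1
      · rw [av_mul_left]
        congr 1
        exact av_remove (0 : Fin (n + 2)) (fun τ : Fin (n + 1) → ι =>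
          hh f (b ∘ ex τ) (b' ∘ ex τ) (fun i => X (i + 1)))
      · rw [av_sum, ← Fin.sum_univ_eq_sum_range (fun i => ((-1 : ℤ) ^ (i + 1)) •
          (av fun τ : Fin (n + 1) → ι => hh f (b ∘ ex τ) (b' ∘ ex τ) (mg i X)))]
        refine Finset.sum_congr rfl fun i _ => ?_
        rw [av_zsmul]
        congr 1
        exact av_remove (i.succ.castSucc : Fin (n + 2)) (fun τ : Fin (n + 1) → ι =>
          hh f (b ∘ ex τ) (b' ∘ ex τ) (mg i X))
    · rw [av_zsmul, av_mul_right]
      congr 2
      exact av_remove (Fin.last (n + 1)) (fun τ : Fin (n + 1) → ι =>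
        hh f (b ∘ ex τ) (b' ∘ ex τ) X)
  rw [av_sub, av_const] at hmain
  rw [← hmain, sub_sub_cancel]
  unfold av
  congr 1
  exact Finset.sum_congr rfl fun σ _ => (hpp σ).symm


end Avg

end Crest.Agent.R121.PC
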