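import Crest.Agent.R121.TE2a

/-! Row 121, module T', file TE2: a maximal partial isometry `w` of `e M e` with `2 ‖w⋆ξ‖² ≤ ‖w ξ‖²`
(Zorn, as `R124.Cmp.exists_maximal` in Crest/Agent/R124/Cmp1.lean, with `exists_sup_lim` for the chains; the inequality
passes to the limit).  For a partial isometry `v` with `(e - ww⋆) v = v`, `v (e - w⋆w) = v` and `2 ‖v⋆ξ‖² ≤ ‖v ξ‖²`, `w + v`
is a partial isometry (`R124.Cmp.pi_add`), `Ext w (w + v)`, the ranges of `w`, `v` are orthogonal and the ranges of `w⋆`, `v⋆`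
too, so `w + v` has the property; by maximality `v = 0`. -/

set_option autoImplicit false
set_option linter.unusedSectionVars false

namespace Crest.Agent.R121.TE

open Crest.Agent.R121 Crest.Agent.R124.Cmp

variable {H : Type*} [NormedAddCommGroup H] [InnerProductSpace ℂ H] [CompleteSpace H]

/-- TE2b -/
theorem exists_max_pi (M : VonNeumannAlgebra H) {e : H →L[ℂ] H} (he : IsStarProjection e) (heM : e ∈ M)
    (ξ : H) :
    ∃ w ∈ M, w * star w * w = w ∧ e * w = w ∧ w * e = w ∧ 2 * ‖star w ξ‖ ^ 2 ≤ ‖w ξ‖ ^ 2 ∧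
      ∀ v ∈ M, v * star v * v = v → (e - w * star w) * v = v → v * (e - star w * w) = v →
        ‖v ξ‖ ^ 2 ≤ 2 * ‖star v ξ‖ ^ 2 := by
  sorry

end Crest.Agent.R121.TE
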